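import Vale.Agent.P249.Moore

/-!
The greedy spanner.
-/

namespace Vale.Agent.P249

open SimpleGraph Finset
open scoped Classical

set_option linter.unusedSectionVars false

variable {V : Type*} [Fintype V]

lemma path_first {H' : SimpleGraph V} {x y t : V} (P : H'.Walk x t) (hP : P.IsPath)
    (he : s(x, y) ∈ P.edges) :
    ∃ P₁ : H'.Walk y t, P.length = P₁.length + 1 ∧ s(x, y) ∉ P₁.edges := by
  cases P with
  | nil => simp at he
  | @cons _ a _ h P₁ =>
    rw [Walk.cons_isPath_iff] at hP
    have hnot : s(x, y) ∉ P₁.edges := fun hmem =>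
      hP.2 (Walk.fst_mem_support_of_mem_edges P₁ hmem)
    have heq : s(x, y) = s(x, a) := by
      simp only [Walk.edges_cons, List.mem_cons] at he
      exact he.resolve_right hnot
    have hay : a = y := by
      simp only [Sym2.eq_iff] at heq
      rcases heq with ⟨-, h2⟩ | ⟨h1, h2⟩
      · exact h2.symm
      · rw [h1] at h2; rw [h2, ← h1]
    subst hay
    exact ⟨P₁, by simp, hnot⟩

lemma cycle_aux {H H' : SimpleGraph V} {x y : V}
    (hadj : ∀ e ∈ H'.edgeSet, e ≠ s(x, y) → e ∈ H.edgeSet) (R : H'.Walk x x) (hR : R.IsCycle)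
    (he : s(x, y) ∈ R.edges) : ∃ q : H.Walk x y, q.length + 1 ≤ R.length := by
  cases R with
  | nil => simp at he
  | @cons _ z _ h q =>
    rw [Walk.cons_isCycle_iff] at hR
    obtain ⟨hq, hn⟩ := hR
    by_cases hz : z = y
    · subst hz
      have ht : ∀ e ∈ q.edges, e ∈ H.edgeSet := fun e hqe =>
        hadj e (q.edges_subset_edgeSet hqe) (fun h0 => hn (h0 ▸ hqe))
      refine ⟨(q.transfer H ht).reverse, ?_⟩
      simp
    · have hne : s(x, y) ≠ s(x, z) := by
        intro h0
        simp only [Sym2.eq_iff] at h0
        rcases h0 with ⟨-, h2⟩ | ⟨h1, h2⟩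
        · exact hz h2.symm
        · exact hz (by rw [← h1, h2])
      have he' : s(x, y) ∈ q.reverse.edges := by
        simp only [Walk.edges_cons, List.mem_cons] at he
        simpa using he.resolve_left hne
      obtain ⟨P₁, hlen, hP₁⟩ := path_first q.reverse hq.reverse he'
      have ht : ∀ e ∈ P₁.edges, e ∈ H.edgeSet := fun e hqe =>
        hadj e (P₁.edges_subset_edgeSet hqe) (fun h0 => hP₁ (h0 ▸ hqe))
      have hadjz : H.Adj z x := by
        have : s(x, z) ∈ H.edgeSet := hadj _ (by simpa using h) (fun h0 => hne h0.symm)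
        exact (by simpa using this : H.Adj x z).symm
      refine ⟨((P₁.transfer H ht).concat hadjz).reverse, ?_⟩
      have hl : q.length = P₁.length + 1 := by simpa using hlen
      simp [hl]

lemma cycle_to_walk {H H' : SimpleGraph V} {x y b : V}
    (hadj : ∀ e ∈ H'.edgeSet, e ≠ s(x, y) → e ∈ H.edgeSet) (C : H'.Walk b b) (hC : C.IsCycle)
    (he : s(x, y) ∈ C.edges) : ∃ q : H.Walk x y, q.length + 1 ≤ C.length := by
  have hx : x ∈ C.support := Walk.fst_mem_support_of_mem_edges C he
  have hR : (C.rotate x hx).IsCycle := hC.rotate hx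
  have he' : s(x, y) ∈ (C.rotate x hx).edges := (C.rotate_edges x hx).mem_iff.2 he
  obtain ⟨q, hq⟩ := cycle_aux hadj _ hR he'
  exact ⟨q, by simpa using hq⟩

lemma noShortCycle_bot (L : ℕ) : NoShortCycle (⊥ : SimpleGraph V) L := by
  intro a w hw
  exact absurd hw (isAcyclic_bot w)

/-- Greedy spanner: edges are taken by increasing weight, and an edge is taken unless its end points
are already joined by a walk of at most `c` steps. -/
theorem exists_greedy (w : Sym2 V → ℝ) (c : ℕ) (hc : 1 ≤ c) (s : Finset (Sym2 V))
    (hs : ∀ e ∈ s, ¬ e.IsDiag) :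
    ∃ H : SimpleGraph V, (∀ e ∈ H.edgeSet, e ∈ s) ∧ NoShortCycle H (c + 1) ∧
      ∀ u v, s(u, v) ∈ s →
        ∃ p : H.Walk u v, p.IsPath ∧ p.length ≤ c ∧ ∀ e ∈ p.edges, w e ≤ w s(u, v) := by
  revert hs
  induction s using Finset.induction_on_max_value w with
  | empty =>
    intro _
    exact ⟨⊥, by simp, noShortCycle_bot _, by simp⟩
  | insert a s _ hmax ih =>
    intro hs
    obtain ⟨H, hHs, hHc, hHp⟩ := ih (fun e he => hs e (mem_insert_of_mem he))
    induction a using Sym2.ind with
    | _ x y =>
      have hxy : x ≠ y := by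
        have := hs s(x, y) (mem_insert_self _ _)
        simpa using this
      by_cases hq : ∃ q : H.Walk x y, q.length ≤ c
      · obtain ⟨q, hq⟩ := hq
        refine ⟨H, fun e he => mem_insert_of_mem (hHs e he), hHc, ?_⟩
        intro u v huv
        rcases mem_insert.1 huv with h0 | h0
        · have hw : ∀ e ∈ q.bypass.edges, w e ≤ w s(x, y) := fun e he =>
            hmax e (hHs e (q.bypass.edges_subset_edgeSet he))
          have hl : q.bypass.length ≤ c :=
            (Walk.length_bypass_le_length q).trans hq
          simp only [Sym2.eq_iff] at h0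
          rcases h0 with ⟨rfl, rfl⟩ | ⟨rfl, rfl⟩
          · exact ⟨q.bypass, q.bypass_isPath, hl, hw⟩
          · refine ⟨q.bypass.reverse, q.bypass_isPath.reverse, by simpa using hl, ?_⟩
            intro e he
            have he' : e ∈ q.bypass.edges := by simpa using he
            rw [Sym2.eq_swap]
            exact hw e he'
        · obtain ⟨p, hp, hl, hw⟩ := hHp u v h0
          exact ⟨p, hp, hl, hw⟩
      · push Not at hq
        set H' : SimpleGraph V := H ⊔ edge x y with hH'
        have hle : H ≤ H' := le_sup_left
        have hadj : ∀ e ∈ H'.edgeSet, e ≠ s(x, y) → e ∈ H.edgeSet := by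
          intro e he hne
          rw [hH', edgeSet_sup, edgeSet_edge_of_ne hxy] at he
          rcases he with he | he
          · exact he
          · exact absurd he hne
        have hnew : H'.Adj x y := by
          rw [hH', sup_adj]
          right
          simp [edge_adj, hxy]
        refine ⟨H', ?_, ?_, ?_⟩
        · intro e he
          by_cases h0 : e = s(x, y)
          · rw [h0]; exact mem_insert_self _ _
          · exact mem_insert_of_mem (hHs e (hadj e he h0))
        · intro b C hC
          by_cases hm : s(x, y) ∈ C.edges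
          · obtain ⟨q, hql⟩ := cycle_to_walk hadj C hC hm
            have := hq q
            omega
          · have ht : ∀ e ∈ C.edges, e ∈ H.edgeSet := fun e he =>
              hadj e (C.edges_subset_edgeSet he) (fun h0 => hm (h0 ▸ he))
            have := hHc b (C.transfer H ht) (hC.transfer ht)
            simpa using this
        · intro u v huv
          rcases mem_insert.1 huv with h0 | h0
          · simp only [Sym2.eq_iff] at h0
            rcases h0 with ⟨rfl, rfl⟩ | ⟨rfl, rfl⟩
            · refine ⟨Walk.cons hnew Walk.nil, ?_, by simpa using hc, ?_⟩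
              · simp [Walk.cons_isPath_iff, hxy]
              · intro e he
                have : e = s(u, v) := by simpa using he
                rw [this]
            · refine ⟨Walk.cons hnew.symm Walk.nil, ?_, by simpa using hc, ?_⟩
              · simp [Walk.cons_isPath_iff, hxy.symm]
              · intro e he
                have : e = s(u, v) := by simpa using he
                rw [this]
          · obtain ⟨p, hp, hl, hw⟩ := hHp u v h0
            refine ⟨p.mapLe hle, hp.mapLe hle, by simpa using hl, ?_⟩
            intro e he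
            have : e ∈ p.edges := by simpa using he
            exact hw e this

/-- The spanner with at most `2 n` edges: each pair of `s` is joined by a path with at most
`2 k - 1` steps, and the edges on the path have no larger weight. -/
theorem exists_spanner (w : Sym2 V → ℝ) {k : ℕ} (hk : 1 ≤ k) (hn : Fintype.card V < 2 ^ k)
    (s : Finset (Sym2 V)) (hs : ∀ e ∈ s, ¬ e.IsDiag) :
    ∃ H : SimpleGraph V, (∀ e ∈ H.edgeSet, e ∈ s) ∧ H.edgeFinset.card ≤ 2 * Fintype.card V ∧
      ∀ u v, s(u, v) ∈ s →
        ∃ p : H.Walk u v, p.IsPath ∧ p.length ≤ 2 * k - 1 ∧ ∀ e ∈ p.edges, w e ≤ w s(u, v) := by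
  obtain ⟨H, h1, h2, h3⟩ := exists_greedy w (2 * k - 1) (by omega) s hs
  have h2' : NoShortCycle H (2 * k) := by
    have : 2 * k - 1 + 1 = 2 * k := by omega
    rwa [this] at h2
  exact ⟨H, h1, card_edgeFinset_le hk h2' hn, h3⟩

end Vale.Agent.P249
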