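import Mathlib

/-!
Deterministic sampling lemma (method of conditional expectations) on an arbitrary measure space.
-/

namespace Vale.Agent.P249

open MeasureTheory Finset

variable {Ω : Type*} [MeasurableSpace Ω] {μ : Measure Ω}

lemma exp_chord {S x : ℝ} (hS : 0 < S) (hx0 : 0 ≤ x) (hxS : x ≤ S) (t : ℝ) :
    Real.exp (t * x) ≤ 1 + (x / S) * (Real.exp (t * S) - 1) := by
  have h1 : 0 ≤ x / S := div_nonneg hx0 hS.le
  have h2 : 0 ≤ 1 - x / S := by
    rw [sub_nonneg, div_le_one hS]; exact hxS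
  have h3 := convexOn_exp.2 (Set.mem_univ (0 : ℝ)) (Set.mem_univ (t * S)) h2 h1 (by ring)
  simp only [smul_eq_mul, mul_zero, zero_add, Real.exp_zero, mul_one] at h3
  have h4 : x / S * (t * S) = t * x := by field_simp
  rw [h4] at h3
  linarith

/-- One draw. -/
lemma step {J : Type*} [Fintype J] (a : J → Ω → ℝ) (σ : Ω → ℝ) {S : ℝ} (t U : J → ℝ)
    (ha0 : ∀ j ω, 0 ≤ a j ω) (hle : ∀ j ω, a j ω ≤ σ ω) (hσ0 : ∀ ω, 0 ≤ σ ω)
    (haint : ∀ j, Integrable (a j) μ) (hσint : Integrable σ μ)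
    (hI : ∀ j, ∫ ω, a j ω ∂μ = 1) (hσ : ∫ ω, σ ω ∂μ = S) (hS : 0 < S) (hU : ∀ j, 0 ≤ U j) :
    ∃ ω, 0 < σ ω ∧
      ∑ j, U j * Real.exp (t j * (S * a j ω / σ ω) - (Real.exp (t j * S) - 1) / S) ≤ ∑ j, U j := by
  classical
  by_contra hcon
  push Not at hcon
  set κ : J → ℝ := fun j => (Real.exp (t j * S) - 1) / S with hκ
  set h : Ω → ℝ := fun ω =>
    ∑ j, U j * Real.exp (-κ j) * (σ ω + a j ω * (Real.exp (t j * S) - 1)) - σ ω * ∑ j, U j with hh
  have hpt : ∀ ω, 0 < σ ω → 0 < h ω := by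
    intro ω hω
    have hc := hcon ω hω
    have hb : σ ω * ∑ j, U j * Real.exp (t j * (S * a j ω / σ ω) - κ j) ≤
        ∑ j, U j * Real.exp (-κ j) * (σ ω + a j ω * (Real.exp (t j * S) - 1)) := by
      rw [Finset.mul_sum]
      refine Finset.sum_le_sum fun j _ => ?_
      have hY0 : 0 ≤ S * a j ω / σ ω := by
        have := ha0 j ω
        positivity
      have hYS : S * a j ω / σ ω ≤ S := by
        rw [div_le_iff₀ hω]
        exact mul_le_mul_of_nonneg_left (hle j ω) hS.le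
      have hch := exp_chord hS hY0 hYS (t j)
      have hsplit : Real.exp (t j * (S * a j ω / σ ω) - κ j) =
          Real.exp (t j * (S * a j ω / σ ω)) * Real.exp (-κ j) := by
        rw [← Real.exp_add]; ring_nf
      rw [hsplit]
      have hmul : σ ω * Real.exp (t j * (S * a j ω / σ ω)) ≤
          σ ω + a j ω * (Real.exp (t j * S) - 1) := by
        have := mul_le_mul_of_nonneg_left hch hω.le
        have e1 : σ ω * (1 + S * a j ω / σ ω / S * (Real.exp (t j * S) - 1)) =
            σ ω + a j ω * (Real.exp (t j * S) - 1) := by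
          field_simp
        rwa [e1] at this
      have hnn : 0 ≤ U j * Real.exp (-κ j) := mul_nonneg (hU j) (Real.exp_pos _).le
      calc σ ω * (U j * (Real.exp (t j * (S * a j ω / σ ω)) * Real.exp (-κ j)))
          = U j * Real.exp (-κ j) * (σ ω * Real.exp (t j * (S * a j ω / σ ω))) := by ring
        _ ≤ U j * Real.exp (-κ j) * (σ ω + a j ω * (Real.exp (t j * S) - 1)) :=
            mul_le_mul_of_nonneg_left hmul hnn
    have : σ ω * ∑ j, U j < σ ω * ∑ j, U j * Real.exp (t j * (S * a j ω / σ ω) - κ j) :=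
      mul_lt_mul_of_pos_left hc hω
    simp only [hh]
    linarith
  have hzero : ∀ ω, σ ω = 0 → h ω = 0 := by
    intro ω hω
    have ha : ∀ j, a j ω = 0 := fun j => le_antisymm (hω ▸ hle j ω) (ha0 j ω)
    simp [hh, hω, ha]
  have hnn : 0 ≤ᵐ[μ] h := Filter.Eventually.of_forall fun ω => by
    rcases (hσ0 ω).lt_or_eq with h0 | h0
    · exact (hpt ω h0).le
    · exact (hzero ω h0.symm).ge
  have hB : ∀ j, Integrable
      (fun ω => U j * Real.exp (-κ j) * (σ ω + a j ω * (Real.exp (t j * S) - 1))) μ := fun j =>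
    (hσint.add ((haint j).mul_const _)).const_mul _
  have hA : Integrable
      (fun ω => ∑ j, U j * Real.exp (-κ j) * (σ ω + a j ω * (Real.exp (t j * S) - 1))) μ :=
    integrable_finsetSum _ fun j _ => hB j
  have hC : Integrable (fun ω => σ ω * ∑ j, U j) μ := hσint.mul_const _
  have hint : Integrable h μ := hA.sub hC
  have hval : ∫ ω, h ω ∂μ ≤ 0 := by
    have hterm : ∀ j, ∫ ω, U j * Real.exp (-κ j) * (σ ω + a j ω * (Real.exp (t j * S) - 1)) ∂μ =
        U j * Real.exp (-κ j) * (S * (1 + κ j)) := by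
      intro j
      rw [integral_const_mul, integral_add hσint ((haint j).mul_const _), integral_mul_const, hI j,
        hσ]
      simp only [hκ]
      field_simp
    have hsum : ∫ ω, h ω ∂μ =
        ∑ j, U j * Real.exp (-κ j) * (S * (1 + κ j)) - S * ∑ j, U j := by
      simp only [hh]
      rw [integral_sub hA hC, integral_finsetSum _ (fun j _ => hB j), integral_mul_const, hσ]
      congr 1
      exact Finset.sum_congr rfl fun j _ => hterm j
    rw [hsum, sub_nonpos, Finset.mul_sum]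
    refine Finset.sum_le_sum fun j _ => ?_
    have h1 : Real.exp (-κ j) * (1 + κ j) ≤ 1 := by
      have h2 : 1 + κ j ≤ Real.exp (κ j) := by linarith [Real.add_one_le_exp (κ j)]
      have h3 : Real.exp (-κ j) * Real.exp (κ j) = 1 := by rw [← Real.exp_add]; simp
      calc Real.exp (-κ j) * (1 + κ j) ≤ Real.exp (-κ j) * Real.exp (κ j) :=
            mul_le_mul_of_nonneg_left h2 (Real.exp_pos _).le
        _ = 1 := h3
    have hUS : 0 ≤ S * U j := mul_nonneg hS.le (hU j)
    calc U j * Real.exp (-κ j) * (S * (1 + κ j))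
        = S * U j * (Real.exp (-κ j) * (1 + κ j)) := by ring
      _ ≤ S * U j * 1 := mul_le_mul_of_nonneg_left h1 hUS
      _ = S * U j := by ring
  have hval0 : ∫ ω, h ω ∂μ = 0 := le_antisymm hval (integral_nonneg_of_ae hnn)
  have hae : h =ᵐ[μ] 0 := (integral_eq_zero_iff_of_nonneg_ae hnn hint).1 hval0
  have hσae : σ =ᵐ[μ] 0 := by
    filter_upwards [hae] with ω hω
    by_contra hne
    have : 0 < σ ω := lt_of_le_of_ne (hσ0 ω) (Ne.symm hne)
    have h2 := hpt ω this
    rw [hω] at h2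
    simp at h2
  have : ∫ ω, σ ω ∂μ = 0 := by
    rw [integral_congr_ae hσae]
    simp
  rw [hσ] at this
  exact hS.ne' this

/-- `m` draws. -/
lemma iterate_draws {J : Type*} [Fintype J] (a : J → Ω → ℝ) (σ : Ω → ℝ) {S : ℝ} (t : J → ℝ)
    (ha0 : ∀ j ω, 0 ≤ a j ω) (hle : ∀ j ω, a j ω ≤ σ ω) (hσ0 : ∀ ω, 0 ≤ σ ω)
    (haint : ∀ j, Integrable (a j) μ) (hσint : Integrable σ μ)
    (hI : ∀ j, ∫ ω, a j ω ∂μ = 1) (hσ : ∫ ω, σ ω ∂μ = S) (hS : 0 < S) (m : ℕ) :
    ∃ ω : Fin m → Ω, (∀ l, 0 < σ (ω l)) ∧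
      ∑ j, Real.exp (t j * ∑ l, (S * a j (ω l) / σ (ω l)) -
        m * ((Real.exp (t j * S) - 1) / S)) ≤ Fintype.card J := by
  induction m with
  | zero =>
    refine ⟨Fin.elim0, fun l => l.elim0, ?_⟩
    simp
  | succ m ih =>
    obtain ⟨ω, hω, hΦ⟩ := ih
    obtain ⟨ω₀, hω₀, hstep⟩ := step (μ := μ) a σ t
      (fun j => Real.exp (t j * ∑ l, (S * a j (ω l) / σ (ω l)) -
        m * ((Real.exp (t j * S) - 1) / S))) ha0 hle hσ0 haint hσint hI hσ hS
      (fun j => (Real.exp_pos _).le)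
    refine ⟨Fin.cons ω₀ ω, ?_, ?_⟩
    · intro l
      refine Fin.cases ?_ (fun i => ?_) l
      · simpa using hω₀
      · simpa using hω i
    · refine le_trans (le_of_eq ?_) (hstep.trans hΦ)
      refine Finset.sum_congr rfl fun j _ => ?_
      rw [← Real.exp_add, Fin.sum_univ_succ]
      simp only [Fin.cons_zero, Fin.cons_succ]
      congr 1
      push_cast
      ring

/-- The sampling lemma: `d ≥ 4 S log (2 N) / ε ^ 2` weighted draws preserve all the `N` integrals
up to the factor `1 ± ε`. -/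
theorem sampling {E : Type*} [Fintype E] [Nonempty E] (a : E → Ω → ℝ) (σ : Ω → ℝ) {S : ℝ}
    (ha0 : ∀ e ω, 0 ≤ a e ω) (hle : ∀ e ω, a e ω ≤ σ ω)
    (haint : ∀ e, Integrable (a e) μ) (hσint : Integrable σ μ)
    (hI : ∀ e, ∫ ω, a e ω ∂μ = 1) (hσ : ∫ ω, σ ω ∂μ = S) (hS : 0 < S)
    {ε : ℝ} (hε : 0 < ε) (hε1 : ε ≤ 1) {d : ℕ}
    (hd : 4 * S * Real.log (2 * Fintype.card E) / ε ^ 2 ≤ d) (hd0 : 0 < d) :
    ∃ ω : Fin d → Ω, (∀ l, 0 < σ (ω l)) ∧ ∀ e,
      (1 - ε) * d ≤ ∑ l, (S * a e (ω l) / σ (ω l)) ∧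
      ∑ l, (S * a e (ω l) / σ (ω l)) ≤ (1 + ε) * d := by
  classical
  have hσ0 : ∀ ω, 0 ≤ σ ω := fun ω =>
    (ha0 (Classical.arbitrary E) ω).trans (hle (Classical.arbitrary E) ω)
  set lam : ℝ := ε / (2 * S) with hlam
  have hlam0 : 0 < lam := by positivity
  have hy : lam * S = ε / 2 := by
    rw [hlam]; field_simp
  have hy1 : |lam * S| ≤ 1 := by
    rw [hy, abs_of_pos (by positivity)]; linarith
  have hy2 : |(-lam) * S| ≤ 1 := by
    rw [neg_mul, abs_neg]; exact hy1
  obtain ⟨ω, hω, hΦ⟩ := iterate_draws (μ := μ) (J := E × Bool) (fun j => a j.1) σ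
    (fun j => if j.2 then lam else -lam) (fun j => ha0 j.1) (fun j => hle j.1) hσ0
    (fun j => haint j.1) hσint (fun j => hI j.1) hσ hS d
  refine ⟨ω, hω, fun e => ?_⟩
  have hcard : (Fintype.card (E × Bool) : ℝ) = 2 * Fintype.card E := by
    simp [Fintype.card_prod]; ring
  have hEpos : 1 ≤ (Fintype.card E : ℝ) := by
    exact_mod_cast Fintype.card_pos (α := E)
  have hlogpos : 0 < Real.log (2 * Fintype.card E) := Real.log_pos (by linarith)
  have hterm : ∀ j : E × Bool,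
      (if j.2 then lam else -lam) * ∑ l, (S * a j.1 (ω l) / σ (ω l)) -
        d * ((Real.exp ((if j.2 then lam else -lam) * S) - 1) / S) ≤
      Real.log (2 * Fintype.card E) := by
    intro j
    have h1 := (Finset.single_le_sum (f := fun j : E × Bool =>
      Real.exp ((if j.2 then lam else -lam) * ∑ l, (S * a j.1 (ω l) / σ (ω l)) -
        d * ((Real.exp ((if j.2 then lam else -lam) * S) - 1) / S)))
      (fun i _ => (Real.exp_pos _).le) (Finset.mem_univ j)).trans hΦ
    rw [hcard] at h1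
    have h2 := Real.log_le_log (Real.exp_pos _) h1
    rwa [Real.log_exp] at h2
  -- the log term is small
  have hlogd : Real.log (2 * Fintype.card E) ≤ lam * (ε / 2 * d) := by
    have h1 : 4 * S * Real.log (2 * Fintype.card E) ≤ d * ε ^ 2 := by
      rwa [div_le_iff₀ (by positivity)] at hd
    rw [hlam]
    have hS' : 0 < 2 * S := by positivity
    rw [div_mul_eq_mul_div, le_div_iff₀ hS']
    nlinarith
  set Z : ℝ := ∑ l, (S * a e (ω l) / σ (ω l)) with hZ
  have hd' : (0 : ℝ) < d := by exact_mod_cast hd0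
  constructor
  · -- lower bound, from the sign `-lam`
    have h1 := hterm (e, false)
    simp only [Bool.false_eq_true, if_false] at h1
    have h2 := Real.abs_exp_sub_one_sub_id_le hy2
    have h3 : (-lam) * S = -(ε / 2) := by rw [neg_mul, hy]
    rw [h3] at h2 h1
    rw [abs_le] at h2
    have h4 : Real.exp (-(ε / 2)) - 1 ≤ -(ε / 2) + (ε / 2) ^ 2 := by
      have := h2.2
      have e1 : (-(ε / 2)) ^ 2 = (ε / 2) ^ 2 := by ring
      rw [e1] at this
      linarith
    have h5 : (Real.exp (-(ε / 2)) - 1) / S ≤ (-(ε / 2) + (ε / 2) ^ 2) / S :=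
      div_le_div_of_nonneg_right h4 hS.le
    have h6 : d * ((Real.exp (-(ε / 2)) - 1) / S) ≤ d * ((-(ε / 2) + (ε / 2) ^ 2) / S) :=
      mul_le_mul_of_nonneg_left h5 hd'.le
    have h7 : (-(ε / 2) + (ε / 2) ^ 2) / S = lam * (-1 + ε / 2) := by
      rw [hlam]; field_simp
    rw [h7] at h6
    have h8 : lam * ((1 - ε) * d) ≤ lam * Z := by
      have : lam * ((1 - ε) * d) = -(lam * (ε / 2 * d)) + d * (lam * (1 - ε / 2)) := by ring
      rw [this]
      have e2 : d * (lam * (-1 + ε / 2)) = - (d * (lam * (1 - ε / 2))) := by ring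
      rw [e2] at h6
      nlinarith
    exact le_of_mul_le_mul_left h8 hlam0
  · -- upper bound, from the sign `lam`
    have h1 := hterm (e, true)
    simp only [if_true] at h1
    have h2 := Real.abs_exp_sub_one_sub_id_le hy1
    rw [hy] at h2 h1
    rw [abs_le] at h2
    have h4 : Real.exp (ε / 2) - 1 ≤ ε / 2 + (ε / 2) ^ 2 := by linarith [h2.2]
    have h5 : (Real.exp (ε / 2) - 1) / S ≤ (ε / 2 + (ε / 2) ^ 2) / S :=
      div_le_div_of_nonneg_right h4 hS.le
    have h6 : d * ((Real.exp (ε / 2) - 1) / S) ≤ d * ((ε / 2 + (ε / 2) ^ 2) / S) :=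
      mul_le_mul_of_nonneg_left h5 hd'.le
    have h7 : (ε / 2 + (ε / 2) ^ 2) / S = lam * (1 + ε / 2) := by
      rw [hlam]; field_simp
    rw [h7] at h6
    have h8 : lam * Z ≤ lam * ((1 + ε) * d) := by
      have : lam * ((1 + ε) * d) = lam * (ε / 2 * d) + d * (lam * (1 + ε / 2)) := by ring
      rw [this]
      nlinarith
    exact le_of_mul_le_mul_left h8 hlam0

end Vale.Agent.P249
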