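import Vale.Agent.P249.Greedy
import Vale.Agent.P249.Sample

/-!
Near linear dimension reduction for finite subsets of `L_p`.
-/

namespace Vale.Agent.P249

open MeasureTheory SimpleGraph Finset
open scoped Classical ENNReal

set_option linter.unusedSectionVars false

section Lip

variable {V : Type*} [Fintype V]

lemma path_sum {H : SimpleGraph V} (f : V → ℝ) (A : Sym2 V → ℝ)
    (hA : ∀ a b, A s(a, b) = |f a - f b|) {u v : V} (p : H.Walk u v) :
    |f u - f v| ≤ (p.edges.map A).sum := by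
  induction p with
  | nil => simp
  | @cons a b c h q ih =>
    simp only [Walk.edges_cons, List.map_cons, List.sum_cons, hA]
    exact (abs_sub_le _ _ _).trans (by linarith)

/-- The slope of a function on a pair is controlled by its energy on a spanner. -/
lemma lip_bound {H : SimpleGraph V} {q : ℝ} (hq : 1 ≤ q) (A w : Sym2 V → ℝ) (f : V → ℝ)
    (hA : ∀ a b, A s(a, b) = |f a - f b|) (hA0 : ∀ e, 0 ≤ A e) {u v : V} (p : H.Walk u v)
    (hp : p.IsPath) {c : ℕ} (hl : p.length ≤ c) {W : ℝ} (hw : ∀ e ∈ p.edges, w e ≤ W)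
    (hw0 : ∀ e ∈ H.edgeSet, 0 < w e) :
    |f u - f v| ^ q / W ^ q ≤ (c : ℝ) ^ (q - 1) * ∑ e ∈ H.edgeFinset, A e ^ q / w e ^ q := by
  classical
  have hq0 : 0 < q := by linarith
  have hnd : p.edges.Nodup := hp.isTrail.edges_nodup
  set T : Finset (Sym2 V) := p.edges.toFinset with hT
  have hTc : (T.card : ℝ) ≤ c := by
    rw [hT, List.toFinset_card_of_nodup hnd, Walk.length_edges]
    exact_mod_cast hl
  have hsum : (p.edges.map A).sum = ∑ e ∈ T, A e := (List.sum_toFinset A hnd).symm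
  have h1 : |f u - f v| ≤ ∑ e ∈ T, |A e| := by
    have := path_sum f A hA p
    rw [hsum] at this
    refine this.trans (le_of_eq ?_)
    exact Finset.sum_congr rfl fun e _ => (abs_of_nonneg (hA0 e)).symm
  have h2 : |f u - f v| ^ q ≤ (T.card : ℝ) ^ (q - 1) * ∑ e ∈ T, |A e| ^ q :=
    (Real.rpow_le_rpow (abs_nonneg _) h1 hq0.le).trans
      (Real.rpow_sum_le_const_mul_sum_rpow T A hq)
  have hsub : T ⊆ H.edgeFinset := by
    intro e he
    have : e ∈ p.edges := by simpa [hT] using he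
    simpa using p.edges_subset_edgeSet this
  have hterm : ∀ e ∈ T, 0 < w e := fun e he => hw0 e (by simpa using hsub he)
  have hWpos : ∀ e ∈ T, 0 < W := fun e he => (hterm e he).trans_le (hw e (by simpa [hT] using he))
  have h3 : (∑ e ∈ T, |A e| ^ q) / W ^ q ≤ ∑ e ∈ T, A e ^ q / w e ^ q := by
    rw [Finset.sum_div]
    refine Finset.sum_le_sum fun e he => ?_
    rw [abs_of_nonneg (hA0 e)]
    have hwe := hterm e he
    refine div_le_div_of_nonneg_left (Real.rpow_nonneg (hA0 e) _) (Real.rpow_pos_of_pos hwe _) ?_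
    exact Real.rpow_le_rpow hwe.le (hw e (by simpa [hT] using he)) hq0.le
  have h4 : ∑ e ∈ T, A e ^ q / w e ^ q ≤ ∑ e ∈ H.edgeFinset, A e ^ q / w e ^ q := by
    refine Finset.sum_le_sum_of_subset_of_nonneg hsub fun e he _ => ?_
    have : 0 < w e := hw0 e (by simpa using he)
    exact div_nonneg (Real.rpow_nonneg (hA0 e) _) (Real.rpow_nonneg this.le _)
  have hW0 : 0 ≤ W ^ q ∨ T = ∅ := by
    by_cases hTe : T = ∅
    · right; exact hTe
    · left
      obtain ⟨e, he⟩ := Finset.nonempty_iff_ne_empty.2 hTe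
      exact Real.rpow_nonneg (hWpos e he).le _
  have h5 : ((T.card : ℝ) ^ (q - 1)) ≤ (c : ℝ) ^ (q - 1) :=
    Real.rpow_le_rpow (Nat.cast_nonneg _) hTc (by linarith)
  have hnn : 0 ≤ ∑ e ∈ H.edgeFinset, A e ^ q / w e ^ q := by
    refine Finset.sum_nonneg fun e he => ?_
    have : 0 < w e := hw0 e (by simpa using he)
    exact div_nonneg (Real.rpow_nonneg (hA0 e) _) (Real.rpow_nonneg this.le _)
  rcases hW0 with hW0 | hTe
  · calc |f u - f v| ^ q / W ^ q
        ≤ ((T.card : ℝ) ^ (q - 1) * ∑ e ∈ T, |A e| ^ q) / W ^ q :=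
          div_le_div_of_nonneg_right h2 hW0
      _ = (T.card : ℝ) ^ (q - 1) * ((∑ e ∈ T, |A e| ^ q) / W ^ q) := by ring
      _ ≤ (T.card : ℝ) ^ (q - 1) * ∑ e ∈ H.edgeFinset, A e ^ q / w e ^ q :=
          mul_le_mul_of_nonneg_left (h3.trans h4) (Real.rpow_nonneg (Nat.cast_nonneg _) _)
      _ ≤ (c : ℝ) ^ (q - 1) * ∑ e ∈ H.edgeFinset, A e ^ q / w e ^ q :=
          mul_le_mul_of_nonneg_right h5 hnn
  · -- the path is empty, so `u = v`
    have h6 : |f u - f v| = 0 := by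
      have := path_sum f A hA p
      rw [hsum, hTe] at this
      simp only [Finset.sum_empty] at this
      exact le_antisymm this (abs_nonneg _)
    rw [h6, Real.zero_rpow hq0.ne', zero_div]
    exact mul_nonneg (Real.rpow_nonneg (Nat.cast_nonneg _) _) hnn

end Lip

section Lp

variable {Ω : Type*} [MeasurableSpace Ω] {μ : Measure Ω}

/-- The `p`-th power of the norm of a difference in `L_p`, as an integral of the chosen
representatives. -/
lemma norm_sub_rpow_eq {q : ℝ} (hq : 1 ≤ q) [Fact (1 ≤ ENNReal.ofReal q)]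
    (y z : Lp ℝ (ENNReal.ofReal q) μ) :
    Integrable (fun ω => |y ω - z ω| ^ q) μ ∧ ∫ ω, |y ω - z ω| ^ q ∂μ = ‖y - z‖ ^ q := by
  have hq0 : 0 < q := by linarith
  have hp0 : ENNReal.ofReal q ≠ 0 := by simpa using hq0
  have hpt : ENNReal.ofReal q ≠ ∞ := ENNReal.ofReal_ne_top
  have hreal : (ENNReal.ofReal q).toReal = q := ENNReal.toReal_ofReal hq0.le
  have hmem := Lp.memLp (y - z)
  have hae : (fun ω => ‖(y - z : Lp ℝ (ENNReal.ofReal q) μ) ω‖ ^ q) =ᵐ[μ]
      (fun ω => |y ω - z ω| ^ q) := by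
    filter_upwards [Lp.coeFn_sub y z] with ω hω
    rw [hω]
    simp
  have hint := hmem.integrable_norm_rpow hp0 hpt
  rw [hreal] at hint
  refine ⟨hint.congr hae, ?_⟩
  rw [← integral_congr_ae hae, Lp.norm_def, hmem.eLpNorm_eq_integral_rpow_norm hp0 hpt, hreal,
    ENNReal.toReal_ofReal (Real.rpow_nonneg (integral_nonneg fun ω => Real.rpow_nonneg
      (norm_nonneg _) _) _), ← Real.rpow_mul (integral_nonneg fun ω => Real.rpow_nonneg
      (norm_nonneg _) _), inv_mul_cancel₀ hq0.ne', Real.rpow_one]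

/-- The constant of the main bound. -/
noncomputable def constK (q D : ℝ) : ℝ :=
  24 * 5 ^ (q - 1) / ((D ^ q - 1) / (D ^ q + 1)) ^ 2 + 2 ^ q

/-- Arithmetic part: the number of draws is at most `K n (log n) ^ q`. -/
lemma draws_bound {q ε : ℝ} (hq : 1 ≤ q) (hε : 0 < ε) {n : ℕ} (hn : 2 ≤ n) {c N : ℕ}
    (hc : c = 2 * (Nat.log 2 n + 1) - 1) {S : ℝ} (hS : S ≤ (c : ℝ) ^ (q - 1) * (2 * n))
    (hS0 : 0 < S) (hN : N ≤ n ^ 2) (hN0 : 1 ≤ N) :
    ((⌈4 * S * Real.log (2 * N) / ε ^ 2⌉₊ : ℕ) : ℝ) ≤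
      (24 * 5 ^ (q - 1) / ε ^ 2 + 2 ^ q) * n * Real.log n ^ q := by
  have hnR : (2 : ℝ) ≤ n := by exact_mod_cast hn
  have hn0 : (0 : ℝ) < n := by linarith
  have hlog2 : (0.69 : ℝ) < Real.log 2 := by
    have := Real.log_two_gt_d9; norm_num at this ⊢; linarith
  have hlogn : Real.log 2 ≤ Real.log n := Real.log_le_log (by norm_num) hnR
  have hL : 0 < Real.log n := by linarith
  -- the bound on c
  have hclog : (c : ℝ) ≤ 5 * Real.log n := by
    have h1 : 2 ^ Nat.log 2 n ≤ n := Nat.pow_log_le_self 2 (by omega)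
    have h2 : ((Nat.log 2 n : ℕ) : ℝ) * Real.log 2 ≤ Real.log n := by
      have h3 : ((2 : ℝ) ^ Nat.log 2 n) ≤ n := by exact_mod_cast h1
      have h4 := Real.log_le_log (by positivity) h3
      rwa [Real.log_pow] at h4
    have h5 : (c : ℝ) = 2 * (Nat.log 2 n : ℝ) + 1 := by
      rw [hc]
      have : 2 * (Nat.log 2 n + 1) - 1 = 2 * Nat.log 2 n + 1 := by omega
      rw [this]
      push_cast
      ring
    rw [h5]
    have h6 : (Nat.log 2 n : ℝ) ≤ Real.log n / Real.log 2 := by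
      rw [le_div_iff₀ (by linarith)]
      exact h2
    have h7 : Real.log n / Real.log 2 ≤ Real.log n / 0.69 :=
      div_le_div_of_nonneg_left hL.le (by norm_num) hlog2.le
    have h8 : Real.log n / 0.69 = Real.log n * (100 / 69) := by ring
    rw [h8] at h7
    nlinarith
  -- the bound on the logarithm
  have hlogN : Real.log (2 * N) ≤ 3 * Real.log n := by
    have h1 : (2 : ℝ) * N ≤ n ^ 3 := by
      have h2 : (N : ℝ) ≤ n ^ 2 := by exact_mod_cast hN
      have h3 : (n : ℝ) ^ 3 = n * n ^ 2 := by ring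
      rw [h3]
      exact mul_le_mul hnR h2 (Nat.cast_nonneg _) hn0.le
    have hN1 : (1 : ℝ) ≤ N := by exact_mod_cast hN0
    have h2 := Real.log_le_log (by positivity) h1
    rwa [Real.log_pow] at h2
  have hlogN0 : 0 ≤ Real.log (2 * N) := by
    apply Real.log_nonneg
    have hN1 : (1 : ℝ) ≤ N := by exact_mod_cast hN0
    linarith
  have hq1 : 0 ≤ q - 1 := by linarith
  have hcpow : (c : ℝ) ^ (q - 1) ≤ 5 ^ (q - 1) * Real.log n ^ (q - 1) := by
    rw [← Real.mul_rpow (by norm_num) hL.le]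
    exact Real.rpow_le_rpow (Nat.cast_nonneg _) hclog hq1
  have hpow : Real.log n ^ (q - 1) * Real.log n = Real.log n ^ q := by
    rw [← Real.rpow_add_one hL.ne']
    ring_nf
  have hmain : 4 * S * Real.log (2 * N) / ε ^ 2 ≤ 24 * 5 ^ (q - 1) / ε ^ 2 * n * Real.log n ^ q := by
    have h1 : S ≤ 5 ^ (q - 1) * Real.log n ^ (q - 1) * (2 * n) :=
      hS.trans (mul_le_mul_of_nonneg_right hcpow (by positivity))
    have h2 : 4 * S * Real.log (2 * N) ≤
        4 * (5 ^ (q - 1) * Real.log n ^ (q - 1) * (2 * n)) * (3 * Real.log n) := by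
      apply mul_le_mul _ hlogN hlogN0 (by positivity)
      linarith
    have h3 : 4 * (5 ^ (q - 1) * Real.log n ^ (q - 1) * (2 * n)) * (3 * Real.log n) =
        24 * 5 ^ (q - 1) * n * (Real.log n ^ (q - 1) * Real.log n) := by ring
    rw [h3, hpow] at h2
    have h4 : 24 * 5 ^ (q - 1) / ε ^ 2 * n * Real.log n ^ q =
        (24 * 5 ^ (q - 1) * n * Real.log n ^ q) / ε ^ 2 := by ring
    rw [h4]
    exact div_le_div_of_nonneg_right h2 (by positivity)
  have hone : 1 ≤ 2 ^ q * (n * Real.log n ^ q) := by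
    have h1 : (1 / 2 : ℝ) ^ q ≤ Real.log n ^ q :=
      Real.rpow_le_rpow (by norm_num) (by linarith) (by linarith)
    have h2 : (2 : ℝ) ^ q * (1 / 2 : ℝ) ^ q = 1 := by
      rw [← Real.mul_rpow (by norm_num) (by norm_num)]
      norm_num
    have h3 : (2 : ℝ) ^ q * (1 / 2 : ℝ) ^ q ≤ 2 ^ q * (n * Real.log n ^ q) := by
      apply mul_le_mul_of_nonneg_left _ (by positivity)
      have h4 : 0 ≤ Real.log n ^ q := Real.rpow_nonneg hL.le _
      nlinarith
    linarith
  have hceil := Nat.ceil_lt_add_one (a := 4 * S * Real.log (2 * N) / ε ^ 2) (by positivity)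
  have : (24 * 5 ^ (q - 1) / ε ^ 2 + 2 ^ q) * n * Real.log n ^ q =
      24 * 5 ^ (q - 1) / ε ^ 2 * n * Real.log n ^ q + 2 ^ q * (n * Real.log n ^ q) := by ring
  rw [this]
  linarith

/-- The main theorem, with an explicit constant. -/
theorem main_bound {q D : ℝ} (hq : 1 ≤ q) (hD : 1 < D) {n : ℕ} (hn : 2 ≤ n)
    [Fact (1 ≤ ENNReal.ofReal q)] (X : Finset (Lp ℝ (ENNReal.ofReal q) μ)) (hX : X.card = n) :
    ∃ d : ℕ, (d : ℝ) ≤ constK q D * n * Real.log n ^ q ∧
      ∃ (f : Lp ℝ (ENNReal.ofReal q) μ → Fin d → ℝ) (s : ℝ), 0 < s ∧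
        ∀ y ∈ X, ∀ z ∈ X,
          s * ‖y - z‖ ≤ (∑ k, |f y k - f z k| ^ q) ^ (1 / q) ∧
          (∑ k, |f y k - f z k| ^ q) ^ (1 / q) ≤ D * s * ‖y - z‖ := by
  have hq0 : 0 < q := by linarith
  have hq1 : 0 ≤ q - 1 := by linarith
  -- parameters
  have hDq : 1 < D ^ q := Real.one_lt_rpow hD hq0
  set ε : ℝ := (D ^ q - 1) / (D ^ q + 1) with hε
  have hε0 : 0 < ε := div_pos (by linarith) (by linarith)
  have hε1 : ε < 1 := by
    rw [hε, div_lt_one (by linarith)]
    linarith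
  -- the vertex set
  let V := {y // y ∈ X}
  have hcardV : Fintype.card V = n := by
    rw [Fintype.card_coe, hX]
  let w : Sym2 V → ℝ := Sym2.lift ⟨fun a b => ‖(a.1 - b.1 : Lp ℝ (ENNReal.ofReal q) μ)‖,
    fun a b => norm_sub_rev _ _⟩
  have hwmk : ∀ a b : V, w s(a, b) = ‖(a.1 - b.1 : Lp ℝ (ENNReal.ofReal q) μ)‖ := fun a b => rfl
  let P : Finset (Sym2 V) := univ.filter (fun e => ¬ e.IsDiag)
  have hP : ∀ e ∈ P, ¬ e.IsDiag := fun e he => (mem_filter.1 he).2
  let k := Nat.log 2 n + 1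
  have hk : 1 ≤ k := by omega
  have hnk : Fintype.card V < 2 ^ k := by
    rw [hcardV]
    exact Nat.lt_pow_succ_log_self (by norm_num) n
  obtain ⟨H, hHs, hHcard, hHp⟩ := exists_spanner w hk hnk P hP
  let c := 2 * k - 1
  have hwpos : ∀ e ∈ H.edgeSet, 0 < w e := by
    intro e he
    have hnd := hP e (hHs e he)
    induction e using Sym2.ind with
    | _ a b =>
      rw [hwmk]
      have hab : a ≠ b := by simpa using hnd
      rw [norm_pos_iff, sub_ne_zero]
      exact fun h0 => hab (Subtype.ext h0)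
  -- the edge functions
  let A : Ω → Sym2 V → ℝ := fun ω => Sym2.lift ⟨fun a b => |a.1 ω - b.1 ω|,
    fun a b => abs_sub_comm _ _⟩
  have hAmk : ∀ ω (a b : V), A ω s(a, b) = |a.1 ω - b.1 ω| := fun ω a b => rfl
  have hA0 : ∀ ω e, 0 ≤ A ω e := by
    intro ω e
    induction e using Sym2.ind with
    | _ a b => rw [hAmk]; exact abs_nonneg _
  let G : Ω → Sym2 V → ℝ := fun ω e => A ω e ^ q / w e ^ q
  have hGfacts : ∀ e ∈ H.edgeFinset, Integrable (fun ω => G ω e) μ ∧ ∫ ω, G ω e ∂μ = 1 := by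
    intro e he
    have hwe : 0 < w e := hwpos e (by simpa using he)
    induction e using Sym2.ind with
    | _ a b =>
      have hGmk : ∀ ω, G ω s(a, b) = |a.1 ω - b.1 ω| ^ q / ‖(a.1 - b.1 :
          Lp ℝ (ENNReal.ofReal q) μ)‖ ^ q := fun ω => rfl
      obtain ⟨h1, h2⟩ := norm_sub_rpow_eq (μ := μ) hq a.1 b.1
      have hne : ‖(a.1 - b.1 : Lp ℝ (ENNReal.ofReal q) μ)‖ ^ q ≠ 0 :=
        (Real.rpow_pos_of_pos (by rw [← hwmk]; exact hwe) _).ne'
      simp only [hGmk]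
      refine ⟨h1.div_const _, ?_⟩
      rw [integral_div, h2, div_self hne]
  let σ : Ω → ℝ := fun ω => (c : ℝ) ^ (q - 1) * ∑ e ∈ H.edgeFinset, G ω e
  let S : ℝ := (c : ℝ) ^ (q - 1) * H.edgeFinset.card
  have hσint : Integrable σ μ :=
    (integrable_finsetSum _ fun e he => (hGfacts e he).1).const_mul _
  have hσval : ∫ ω, σ ω ∂μ = S := by
    simp only [σ, S]
    rw [integral_const_mul, integral_finsetSum _ fun e he => (hGfacts e he).1]
    congr 1
    rw [Finset.sum_congr rfl fun e he => (hGfacts e he).2]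
    simp
  -- the family of pairs
  let E := {p : V × V // p.1 ≠ p.2}
  obtain ⟨y₀, hy₀, z₀, hz₀, hyz₀⟩ : ∃ y ∈ X, ∃ z ∈ X, y ≠ z := by
    have : 1 < X.card := by omega
    exact Finset.one_lt_card.1 this
  let e₀ : E := ⟨(⟨y₀, hy₀⟩, ⟨z₀, hz₀⟩), fun h0 => hyz₀ (congrArg Subtype.val h0)⟩
  haveI : Nonempty E := ⟨e₀⟩
  let a : E → Ω → ℝ := fun e ω => |e.1.1.1 ω - e.1.2.1 ω| ^ q /
    ‖(e.1.1.1 - e.1.2.1 : Lp ℝ (ENNReal.ofReal q) μ)‖ ^ q
  have hnormpos : ∀ e : E, 0 < ‖(e.1.1.1 - e.1.2.1 : Lp ℝ (ENNReal.ofReal q) μ)‖ := by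
    intro e
    rw [norm_pos_iff, sub_ne_zero]
    exact fun h0 => e.2 (Subtype.ext h0)
  have ha0 : ∀ e ω, 0 ≤ a e ω := fun e ω =>
    div_nonneg (Real.rpow_nonneg (abs_nonneg _) _) (Real.rpow_nonneg (norm_nonneg _) _)
  have haint : ∀ e, Integrable (a e) μ := fun e =>
    (norm_sub_rpow_eq (μ := μ) hq e.1.1.1 e.1.2.1).1.div_const _
  have haI : ∀ e, ∫ ω, a e ω ∂μ = 1 := by
    intro e
    simp only [a]
    rw [integral_div, (norm_sub_rpow_eq (μ := μ) hq e.1.1.1 e.1.2.1).2,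
      div_self (Real.rpow_pos_of_pos (hnormpos e) _).ne']
  -- the sensitivity bound
  have hale : ∀ e ω, a e ω ≤ σ ω := by
    intro e ω
    have hmem : s(e.1.1, e.1.2) ∈ P := by
      simp only [P, mem_filter, mem_univ, true_and]
      simpa using e.2
    obtain ⟨p, hp, hl, hw⟩ := hHp e.1.1 e.1.2 hmem
    exact lip_bound hq (A ω) w (fun v : V => v.1 ω) (fun x y => rfl) (hA0 ω) p hp hl hw hwpos
  have hσ0 : ∀ ω, 0 ≤ σ ω := fun ω => (ha0 e₀ ω).trans (hale e₀ ω)
  -- positivity of the total mass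
  have hSpos : 0 < S := by
    have h1 : (1 : ℝ) = ∫ ω, a e₀ ω ∂μ := (haI e₀).symm
    have h2 : ∫ ω, a e₀ ω ∂μ ≤ ∫ ω, σ ω ∂μ :=
      integral_mono (haint e₀) hσint (hale e₀)
    rw [hσval] at h2
    linarith
  -- number of draws
  let N := Fintype.card E
  have hN0 : 1 ≤ N := Fintype.card_pos
  have hNle : N ≤ n ^ 2 := by
    have h1 : N ≤ Fintype.card (V × V) := Fintype.card_subtype_le _
    rw [Fintype.card_prod, hcardV] at h1
    nlinarith
  let d := ⌈4 * S * Real.log (2 * N) / ε ^ 2⌉₊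
  have hlogpos : 0 < Real.log (2 * (N : ℝ)) := by
    apply Real.log_pos
    have : (1 : ℝ) ≤ N := by exact_mod_cast hN0
    linarith
  have hd0 : 0 < d := Nat.ceil_pos.2 (by positivity)
  have hdR : (0 : ℝ) < d := by exact_mod_cast hd0
  obtain ⟨ω, hω, hbd⟩ := sampling a σ ha0 hale haint hσint haI hσval hSpos hε0 hε1.le
    (Nat.le_ceil _) hd0
  -- the bound for d
  have hSle : S ≤ (c : ℝ) ^ (q - 1) * (2 * n) := by
    have h1 : (H.edgeFinset.card : ℝ) ≤ 2 * n := by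
      have := hHcard
      rw [hcardV] at this
      exact_mod_cast this
    exact mul_le_mul_of_nonneg_left h1 (Real.rpow_nonneg (Nat.cast_nonneg _) _)
  have hdbound := draws_bound hq hε0 hn (c := c) (N := N) rfl hSle hSpos hNle hN0
  refine ⟨d, hdbound, ?_⟩
  -- the map
  let coef : Fin d → ℝ := fun l => S / (σ (ω l) * d)
  have hcoef : ∀ l, 0 < coef l := fun l => by
    have := hω l
    positivity
  let f : Lp ℝ (ENNReal.ofReal q) μ → Fin d → ℝ := fun y l => coef l ^ (1 / q) * y (ω l)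
  have hft : ∀ y z l, |f y l - f z l| ^ q = coef l * |y (ω l) - z (ω l)| ^ q := by
    intro y z l
    have h1 : f y l - f z l = coef l ^ (1 / q) * (y (ω l) - z (ω l)) := by
      simp only [f]; ring
    rw [h1, abs_mul, abs_of_pos (Real.rpow_pos_of_pos (hcoef l) _),
      Real.mul_rpow (Real.rpow_pos_of_pos (hcoef l) _).le (abs_nonneg _),
      ← Real.rpow_mul (hcoef l).le, one_div, inv_mul_cancel₀ hq0.ne', Real.rpow_one]
  have hs1 : 0 < 1 - ε := by linarith
  refine ⟨f, (1 - ε) ^ (1 / q), Real.rpow_pos_of_pos hs1 _, ?_⟩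
  intro y hy z hz
  by_cases hyz : y = z
  · subst hyz
    have h0 : ∑ k, |f y k - f y k| ^ q = 0 := by
      simp [Real.zero_rpow hq0.ne']
    rw [h0, Real.zero_rpow (by positivity)]
    simp
  -- the pair as an element of E
  let e : E := ⟨(⟨y, hy⟩, ⟨z, hz⟩), fun h0 => hyz (congrArg Subtype.val h0)⟩
  have hnorm := hnormpos e
  change 0 < ‖y - z‖ at hnorm
  have hsum : ∑ k, |f y k - f z k| ^ q =
      ‖y - z‖ ^ q / d * ∑ l, (S * a e (ω l) / σ (ω l)) := by
    rw [Finset.mul_sum]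
    refine Finset.sum_congr rfl fun l _ => ?_
    rw [hft]
    have hσl := hω l
    simp only [coef, a, e]
    have hne : ‖y - z‖ ^ q ≠ 0 := (Real.rpow_pos_of_pos hnorm _).ne'
    field_simp
  obtain ⟨hlow, hup⟩ := hbd e
  have hnq : 0 < ‖y - z‖ ^ q := Real.rpow_pos_of_pos hnorm _
  have hlow' : (1 - ε) * ‖y - z‖ ^ q ≤ ∑ k, |f y k - f z k| ^ q := by
    rw [hsum, div_mul_eq_mul_div, le_div_iff₀ hdR]
    nlinarith
  have hup' : ∑ k, |f y k - f z k| ^ q ≤ (1 + ε) * ‖y - z‖ ^ q := by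
    rw [hsum, div_mul_eq_mul_div, div_le_iff₀ hdR]
    nlinarith
  have h1q : 0 ≤ 1 / q := by positivity
  have hroot : ∀ t : ℝ, 0 ≤ t → (t * ‖y - z‖ ^ q) ^ (1 / q) = t ^ (1 / q) * ‖y - z‖ := by
    intro t ht
    rw [Real.mul_rpow ht hnq.le, ← Real.rpow_mul hnorm.le, one_div, mul_inv_cancel₀ hq0.ne',
      Real.rpow_one]
  constructor
  · rw [← hroot _ hs1.le]
    exact Real.rpow_le_rpow (by positivity) hlow' h1q
  · have hDs : D * (1 - ε) ^ (1 / q) = (1 + ε) ^ (1 / q) := by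
      have h2 : (D ^ q) * (1 - ε) = 1 + ε := by
        rw [hε]
        have : D ^ q + 1 ≠ 0 := by linarith
        field_simp
        ring
      rw [← h2, Real.mul_rpow (by linarith) hs1.le, ← Real.rpow_mul (by linarith), one_div,
        mul_inv_cancel₀ hq0.ne', Real.rpow_one]
    rw [hDs, ← hroot _ (by linarith)]
    exact Real.rpow_le_rpow (by positivity) hup' h1q

end Lp

end Vale.Agent.P249
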