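import Mathlib

/-!
Moore-type bound: a graph on `n` vertices without cycles of length at most `2 k`, where `n < 2 ^ k`,
has at most `2 n` edges.
-/

namespace Vale.Agent.P249

open SimpleGraph Finset
open scoped Classical

set_option linter.unusedSectionVars false

variable {V : Type*} [Fintype V]

/-- Every cycle of `H` has length greater than `L`. -/
def NoShortCycle (H : SimpleGraph V) (L : ℕ) : Prop :=
  ∀ (a : V) (w : H.Walk a a), w.IsCycle → L < w.length

lemma NoShortCycle.length_add {H : SimpleGraph V} {L : ℕ} (h : NoShortCycle H L) {u v : V}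
    {p q : H.Walk u v} (hp : p.IsPath) (hq : q.IsPath) (hne : p ≠ q) :
    L < p.length + q.length := by
  obtain ⟨w, -, -, c, hc, hlen⟩ := hp.exists_isCycle_length_le_add_of_ne hq hne
  exact lt_of_lt_of_le (h w c hc) hlen

/-- Uniqueness of the predecessor in the breadth first search. -/
lemma pred_unique {H : SimpleGraph V} {L : ℕ} (h : NoShortCycle H L) {v x y y' : V} {j : ℕ}
    (hy : H.Reachable v y) (hy' : H.Reachable v y') (dy : H.dist v y = j) (dy' : H.dist v y' = j)
    (dx : H.dist v x = j + 1) (ax : H.Adj y x) (ax' : H.Adj y' x) (hL : 2 * (j + 1) ≤ L) :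
    y = y' := by
  obtain ⟨Q, hQ⟩ := hy.exists_walk_length_eq_dist
  obtain ⟨Q', hQ'⟩ := hy'.exists_walk_length_eq_dist
  have h1 : (Q.concat ax).length = H.dist v x := by simp [hQ, dy, dx]
  have h2 : (Q'.concat ax').length = H.dist v x := by simp [hQ', dy', dx]
  have p1 := Walk.isPath_of_length_eq_dist _ h1
  have p2 := Walk.isPath_of_length_eq_dist _ h2
  by_contra hne
  have hne' : Q.concat ax ≠ Q'.concat ax' := by
    intro heq
    obtain ⟨hu, -⟩ := Walk.concat_inj heq
    exact hne hu
  have := h.length_add p1 p2 hne'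
  rw [h1, h2, dx] at this
  omega

/-- No edges inside a level of the breadth first search. -/
lemma no_level_edge {H : SimpleGraph V} {L : ℕ} (h : NoShortCycle H L) {v x y : V} {j : ℕ}
    (hx : H.Reachable v x) (hy : H.Reachable v y) (dx : H.dist v x = j) (dy : H.dist v y = j)
    (a : H.Adj y x) (hL : 2 * j + 1 ≤ L) : False := by
  obtain ⟨Q, hQ⟩ := hx.exists_walk_length_eq_dist
  obtain ⟨Q', hQ'⟩ := hy.exists_walk_length_eq_dist
  have pQ := Walk.isPath_of_length_eq_dist _ hQ
  have pQ' := Walk.isPath_of_length_eq_dist _ hQ'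
  have hxs : x ∉ Q'.support := by
    intro hmem
    have hlt := Walk.length_takeUntil_lt_length hmem a.ne.symm
    have hle := dist_le (Q'.takeUntil x hmem)
    omega
  have p1 : (Q'.concat a).IsPath := pQ'.concat hxs a
  have hne : Q ≠ Q'.concat a := by
    intro heq
    have := congrArg Walk.length heq
    simp [hQ, hQ', dx, dy] at this
  have := h.length_add pQ p1 hne
  simp [hQ, hQ', dx, dy] at this
  omega

/-- The `j`-th level of the breadth first search from `v`. -/
noncomputable def lev (H : SimpleGraph V) (v : V) (j : ℕ) : Finset V :=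
  univ.filter (fun x => H.Reachable v x ∧ H.dist v x = j)

lemma mem_lev {H : SimpleGraph V} {v x : V} {j : ℕ} :
    x ∈ lev H v j ↔ H.Reachable v x ∧ H.dist v x = j := by
  simp [lev]

lemma lev_double {H : SimpleGraph V} {k j : ℕ} (h : NoShortCycle H (2 * k)) {v : V}
    (hdeg : ∀ x, H.degree x = 0 ∨ 3 ≤ H.degree x) (hj : 1 ≤ j) (hjk : j + 1 ≤ k) :
    2 * (lev H v j).card ≤ (lev H v (j + 1)).card := by
  have key : ∀ x ∈ lev H v j, 2 ≤ ((lev H v (j + 1)).filter (fun y => H.Adj x y)).card := by
    intro x hx
    obtain ⟨hrx, hdx⟩ := mem_lev.1 hx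
    -- x has a neighbour
    have hxv : v ≠ x := by
      rintro rfl
      simp at hdx
      omega
    have hdegx : H.degree x ≠ 0 := by
      obtain ⟨Q⟩ := hrx.symm
      obtain ⟨w, a, -, -⟩ := Walk.exists_eq_cons_of_ne hxv.symm Q
      exact (H.degree_pos_iff_exists_adj x).2 ⟨w, a⟩ |>.ne'
    have h3 : 3 ≤ H.degree x := (hdeg x).resolve_left hdegx
    -- neighbours at the previous level: at most one
    have hprev : ((H.neighborFinset x).filter (fun y => H.dist v y + 1 = j)).card ≤ 1 := by
      refine Finset.card_le_one.2 ?_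
      intro a ha b hb
      simp only [mem_filter, mem_neighborFinset] at ha hb
      refine pred_unique (L := 2 * k) (j := j - 1) (x := x) (v := v) h ?_ ?_ ?_ ?_ ?_ ha.1.symm
        hb.1.symm ?_
      · exact hrx.trans ha.1.reachable
      · exact hrx.trans hb.1.reachable
      · omega
      · omega
      · omega
      · omega
    -- the neighbours not at the previous level are at the next level
    have hsub : (H.neighborFinset x) ⊆
        ((H.neighborFinset x).filter (fun y => H.dist v y + 1 = j)) ∪
        ((lev H v (j + 1)).filter (fun y => H.Adj x y)) := by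
      intro y hy
      have hadj : H.Adj x y := (mem_neighborFinset _ _ _).1 hy
      have hry : H.Reachable v y := hrx.trans hadj.reachable
      rcases hadj.diff_dist_adj (u := v) with e | e | e
      · exact absurd hadj.symm (fun a => no_level_edge (L := 2 * k) (j := j) h hrx hry hdx
          (by omega) a (by omega))
      · refine mem_union_right _ ?_
        simp only [mem_filter, mem_lev]
        exact ⟨⟨hry, by omega⟩, hadj⟩
      · refine mem_union_left _ ?_
        simp only [mem_filter, mem_neighborFinset]
        exact ⟨hadj, by omega⟩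
    have hc := (card_le_card hsub).trans (card_union_le _ _)
    rw [card_neighborFinset_eq_degree] at hc
    omega
  have hsum := Finset.sum_card_bipartiteAbove_eq_sum_card_bipartiteBelow
    (s := lev H v j) (t := lev H v (j + 1)) (r := fun x y => H.Adj x y)
  have hbelow : ∀ y ∈ lev H v (j + 1), ((lev H v j).filter (fun x => H.Adj x y)).card ≤ 1 := by
    intro y hy
    obtain ⟨hry, hdy⟩ := mem_lev.1 hy
    refine Finset.card_le_one.2 ?_
    intro a ha b hb
    simp only [mem_filter, mem_lev] at ha hb
    exact pred_unique (L := 2 * k) (j := j) (x := y) (v := v) h ha.1.1 hb.1.1 ha.1.2 hb.1.2 hdy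
      ha.2 hb.2 (by omega)
  calc 2 * (lev H v j).card = ∑ _x ∈ lev H v j, 2 := by simp [mul_comm]
    _ ≤ ∑ x ∈ lev H v j, ((lev H v (j + 1)).filter (fun y => H.Adj x y)).card :=
        sum_le_sum key
    _ = ∑ y ∈ lev H v (j + 1), ((lev H v j).filter (fun x => H.Adj x y)).card := hsum
    _ ≤ ∑ _y ∈ lev H v (j + 1), 1 := sum_le_sum hbelow
    _ = (lev H v (j + 1)).card := by simp

lemma two_pow_le_card_of_min_degree {H : SimpleGraph V} {k : ℕ} (h : NoShortCycle H (2 * k))
    (hk : 1 ≤ k) {v : V} (hdeg : ∀ x, H.degree x = 0 ∨ 3 ≤ H.degree x) (hv : H.degree v ≠ 0) :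
    2 ^ k ≤ Fintype.card V := by
  have hlevel : ∀ j, 1 ≤ j → j ≤ k → 2 ^ j ≤ (lev H v j).card := by
    intro j hj
    induction j, hj using Nat.le_induction with
    | base =>
      intro _
      have hsub : H.neighborFinset v ⊆ lev H v 1 := by
        intro y hy
        have hadj : H.Adj v y := (mem_neighborFinset _ _ _).1 hy
        exact mem_lev.2 ⟨hadj.reachable, dist_eq_one_iff_adj.2 hadj⟩
      have h1 := card_le_card hsub
      rw [card_neighborFinset_eq_degree] at h1
      have h3 := (hdeg v).resolve_left hv
      simp only [pow_one]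
      omega
    | succ j hj ih =>
      intro hjk
      have h1 := ih (by omega)
      have h2 := lev_double h hdeg (v := v) hj hjk
      rw [pow_succ]
      omega
  calc 2 ^ k ≤ (lev H v k).card := hlevel k hk le_rfl
    _ ≤ Fintype.card V := card_le_univ _

lemma peel_support (G G1 : SimpleGraph V) (x : V)
    (hadj : ∀ y z, G1.Adj y z → G.Adj y z ∧ y ≠ x ∧ z ≠ x) (hx0 : G.degree x ≠ 0) :
    2 * (univ.filter (fun y => G1.degree y ≠ 0)).card + 2 ≤
      2 * (univ.filter (fun y => G.degree y ≠ 0)).card := by
  have hsub : (univ.filter (fun y => G1.degree y ≠ 0)) ⊆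
      (univ.filter (fun y => G.degree y ≠ 0)).erase x := by
    intro y hy
    simp only [mem_filter, mem_univ, true_and] at hy
    obtain ⟨z, hz⟩ := (G1.degree_pos_iff_exists_adj y).1 (Nat.pos_of_ne_zero hy)
    have hadj' := hadj y z hz
    simp only [mem_erase, mem_filter, mem_univ, true_and]
    exact ⟨hadj'.2.1, ((G.degree_pos_iff_exists_adj y).2 ⟨z, hadj'.1⟩).ne'⟩
  have hc := card_le_card hsub
  have hx : x ∈ univ.filter (fun y => G.degree y ≠ 0) := by simpa using hx0
  rw [card_erase_of_mem hx] at hc
  have hp : 0 < (univ.filter (fun y => G.degree y ≠ 0)).card := card_pos.2 ⟨x, hx⟩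
  omega

lemma edgeFinset_instance_congr (G1 : SimpleGraph V) (i1 i2 : Fintype G1.edgeSet) :
    (@edgeFinset V G1 i1).card = (@edgeFinset V G1 i2).card := by
  rw [Subsingleton.elim i1 i2]

/-- Peeling: a graph with many edges has a subgraph in which every non-isolated vertex has
degree at least `3`, and which still has an edge. -/
lemma exists_peel (m : ℕ) : ∀ G : SimpleGraph V, G.edgeFinset.card = m →
    2 * (univ.filter (fun x => G.degree x ≠ 0)).card < m →
    ∃ G' : SimpleGraph V, G' ≤ G ∧ (∃ v, G'.degree v ≠ 0) ∧
      ∀ x, G'.degree x = 0 ∨ 3 ≤ G'.degree x := by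
  induction m using Nat.strong_induction_on with
  | _ m ih =>
    intro G hG hsupp
    by_cases hall : ∀ x, G.degree x = 0 ∨ 3 ≤ G.degree x
    · refine ⟨G, le_rfl, ?_, hall⟩
      by_contra hno
      push Not at hno
      have hm : m ≠ 0 := by omega
      have hE : G.edgeFinset.Nonempty := by
        rw [← card_pos]; omega
      obtain ⟨e, he⟩ := hE
      induction e using Sym2.ind with
      | _ a b =>
        have hab : G.Adj a b := by simpa using he
        have := hno a
        exact ((G.degree_pos_iff_exists_adj a).2 ⟨b, hab⟩).ne' this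
    · push Not at hall
      obtain ⟨x, hx0, hx3⟩ := hall
      have hcard := G.card_edgeFinset_deleteIncidenceSet x
      rw [hG] at hcard
      have hle : G.degree x ≤ m := by
        have := G.degree_le_card_edgeFinset x
        omega
      have hs := peel_support G (G.deleteIncidenceSet x) x
        (fun y z h => G.deleteIncidenceSet_adj.1 h) hx0
      have hlt : m - G.degree x < m := by omega
      obtain ⟨G', hG', hv, hd⟩ := ih _ hlt (G.deleteIncidenceSet x)
        ((edgeFinset_instance_congr _ _ _).trans hcard) (by omega)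
      exact ⟨G', hG'.trans (G.deleteIncidenceSet_le x), hv, hd⟩

lemma NoShortCycle.mono {G H : SimpleGraph V} {L : ℕ} (h : NoShortCycle H L) (hle : G ≤ H) :
    NoShortCycle G L := by
  intro a w hw
  have := h a (w.mapLe hle) (hw.mapLe hle)
  simpa using this

/-- The Moore bound in the form that is needed here. -/
theorem card_edgeFinset_le {H : SimpleGraph V} {k : ℕ} (hk : 1 ≤ k) (h : NoShortCycle H (2 * k))
    (hn : Fintype.card V < 2 ^ k) : H.edgeFinset.card ≤ 2 * Fintype.card V := by
  by_contra hcon
  push Not at hcon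
  have hsupp : 2 * (univ.filter (fun x => H.degree x ≠ 0)).card < H.edgeFinset.card := by
    have := card_le_univ (univ.filter (fun x => H.degree x ≠ 0))
    omega
  obtain ⟨G', hG', ⟨v, hv⟩, hd⟩ := exists_peel _ H rfl hsupp
  have := two_pow_le_card_of_min_degree (h.mono hG') hk hd hv
  omega

end Vale.Agent.P249
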